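import Vale.Agent.P220.H64.Lin

/-!
# P220: exact Lagrangian tori in `T*T^n` that stay embedded in `T^n × ℝ`
-/

open Vale.Agent.P220.H64

/-- Let `L ⊂ T*T^{m+1}` be an exact Lagrangian torus homotopic to the zero section, and suppose
that for some `v ≠ 0` the map `(q, p) ↦ (q, p(v))` is an injective immersion of `L` into
`T^{m+1} × ℝ`. Then `L` is Hamiltonian isotopic to the zero section. -/
theorem Vale.Agent.Results.P220.OneMomentum.result :
    ∀ (m : ℕ) (ι : V m → Ph m) (v : V m), IsExactLagTorus ι → v ≠ 0 → IsMomEmb ι v →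
      HamIsotopicToZero (Set.range ι) :=
  fun _ _ _ h h0 hv => dir_hamIsotopic h h0 hv
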